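import Vale.Agent.Q236.Br
import Vale.Agent.Q236.HomAlg
import Vale.Agent.Q236.Kun
import Vale.Agent.Q236.Bj
import Vale.Agent.P236K.F87.Fin
import Vale.Agent.P236K.K53.All
import Vale.Agent.P251CX.Top

/-!
# P236: the Kervaire invariant problem at the prime three, with `Ext` over the Steenrod algebra

`A` is the algebra of stable operations of `H = HF_3`, `π_* (H ∧ H)` is its dual, the cobar complex
and the first page of the Adams tower both compute `Ext_A (F_3, F_3)`, and `b_j` is the class in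
`Ext_A^{2, 4 * 3 ^ (j + 1)}` of the cobar cocycle `[a | a ^ 2] + [a ^ 2 | a]`, `a = ξ_1 ^ (3 ^ j)`.
It is never hit, it is a permanent cycle exactly for `j = 0, 2, 3`, and in these cases it detects an
element of order three.

The statement uses only the definitions of `P251/T/Axioms`, `P251/St/Base`, `P251CX/Sp`,
`P251CX/St`, `P236Z/Top/St` and `Q236/Sm`.
-/

namespace Vale.Agent.Results.P236.A0Ext

open CategoryTheory MonObj P251.St P251.St.SHCat P236Z.St P251CX R236

theorem result : (∃ (T : SHCat) (S : Susp T), Nonempty (IsSH T S.toSuspData)) ∧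
    ∀ (T : SHCat) (_ : Susp T),
    (∃ (H : T.C) (_ : MonObj H) (_ : IsCommMonObj H), IsHF 3 η[H]) ∧
    ∀ (H : T.C) [MonObj H] [IsCommMonObj H],
      let u : Hom T.one H := η; let G := Sh H; let K : Cx T.one := cobar H; IsHF 3 u →
      (∀ t, (∀ k, Nat.card (Hom (sph T t) (G k)) = if k = t then 3 else 1) ∧
        Dual H (sph T t) ∧ Kun H (sph T) t ∧ Computes G K (sph T t) ∧
        ∀ A : AdamsTower u, Computes G (adams A) (sph T t)) ∧ Nonempty (AdamsTower u) ∧
      Nat.card (Hom (sph T 4) (ten H H)) = 3 ∧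
      ∀ ξ : Hom (sph T 4) (ten H H), ord (grp _ _) ξ = 3 → ∀ j : ℕ,
        let t : ℤ := 4 * 3 ^ (j + 1); let P := sph T t; let E := ExtA G T.one P 2; let n := t - 2
        Nonempty (P ≅ bigS T (j + 1)) ∧ ∀ c : P ≅ bigS T (j + 1), ∃ b : E,
          Cls G K 2 (comp c.hom (bj (frob ξ j) :)) b ∧ ord E b = 3 ∧
          ∀ A : AdamsTower u, (∃ z : Hom (sph T n) (ten H (A.X 2)), Rep A z b) ∧
            ∀ z : Hom (sph T n) (ten H (A.X 2)), Rep A z b → ¬ A.IsBoundary 2 z ∧
              (A.IsPermCycle 2 z ↔ j = 0 ∨ j = 2 ∨ j = 3) ∧ (A.IsPermCycle 2 z →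
                ∃ θ : Hom (sph T n) T.one, ord (grp _ _) θ = 3 ∧ Detects A z θ) :=
  ⟨exists_isSH, fin_of (Q236.fin_of Q236.rowB1 Q236.rowB2 Q236.rowK1 Q236.rowK2
    (P236K.St.final' (P236K.F87.final_of_stp P236K.Cert.K53.stp)))⟩

end Vale.Agent.Results.P236.A0Ext
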